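import Vale.Agent.P090.Defs
import Vale.Agent.P090.Wedge
import Vale.Agent.P090.Exist
import Vale.Agent.P090.Core

/-!
# P090: a uniformly discrete metric space whose Lipschitz-free space fails the BAP
-/

namespace Vale.Agent.Results.P090.NoBAP

open _root_.P090

theorem result : ∃ (M : Type) (_ : MetricSpace M), Countable M ∧ Nonempty M ∧
    UniformlyDiscrete M ∧ ∀ o : M, ¬ BAP (FreeSpace M o) := by
  obtain ⟨M, inst, h1, h2, h3, h4⟩ := wedge (exists_bad exists_sys)
  exact ⟨M, inst, h1, h2, ⟨1, one_pos, h3⟩, h4⟩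

end Vale.Agent.Results.P090.NoBAP
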